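import Vale.Agent.P271.Var.Weak

/-!
# P271 / Var : slope functionals, the penalised functional and its minimisers (helper366)
-/

set_option linter.unusedSectionVars false

namespace Vale.Agent.P271.Var

open Module Filter Topology
open Vale.Agent.P271.Filt Vale.Agent.P271.Filt.Wt

variable {𝕜 : Type*} [RCLike 𝕜] {V : Type*} [NormedAddCommGroup V] [InnerProductSpace 𝕜 V]
  [FiniteDimensional 𝕜 V]

/-- The filtrations in the domain: nonnegative weights, all vectors of positive weight in `H`. -/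
def Dom (H : Submodule 𝕜 V) (F : Wt 𝕜 V) : Prop :=
  (∀ x, x ≠ 0 → 0 ≤ F.w x) ∧ F.subGt 0 ≤ H

/-- An abstract slope functional on the filtrations of `V` (with `H` = sections vanishing at the
point): nonnegative, monotone, homogeneous, subadditive on apartments, lower semicontinuous. -/
structure Slope (H : Submodule 𝕜 V) where
  a : Wt 𝕜 V → ℝ
  nonneg' : ∀ F, Dom H F → 0 ≤ a F
  mono' : ∀ F G, Dom H F → Dom H G → (∀ x, x ≠ 0 → F.w x ≤ G.w x) → a F ≤ a G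
  smul' : ∀ (b : Basis (Fin (finrank 𝕜 V)) 𝕜 V) (l : Fin (finrank 𝕜 V) → ℝ) (t : ℝ), 0 < t →
    (∀ i, 0 ≤ l i) → (∀ i, 0 < l i → b i ∈ H) →
      a (ofBasis b (fun i => t * l i)) = t * a (ofBasis b l)
  add' : ∀ (b : Basis (Fin (finrank 𝕜 V)) 𝕜 V) (l l' : Fin (finrank 𝕜 V) → ℝ),
    (∀ i, 0 ≤ l i) → (∀ i, 0 < l i → b i ∈ H) → (∀ i, 0 ≤ l' i) → (∀ i, 0 < l' i → b i ∈ H) →
      a (ofBasis b (fun i => l i + l' i)) ≤ a (ofBasis b l) + a (ofBasis b l')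
  lsc' : ∀ (B : ℕ → OrthonormalBasis (Fin (finrank 𝕜 V)) 𝕜 V)
    (B' : OrthonormalBasis (Fin (finrank 𝕜 V)) 𝕜 V) (l : ℕ → Fin (finrank 𝕜 V) → ℝ)
    (l' : Fin (finrank 𝕜 V) → ℝ) (c : ℝ),
    (∀ i, Tendsto (fun n => B n i) atTop (𝓝 (B' i))) →
    (∀ i, Tendsto (fun n => l n i) atTop (𝓝 (l' i))) →
    (∀ n i, 0 ≤ l n i) → (∀ n i, 0 < l n i → B n i ∈ H) →
    (∀ᶠ n in atTop, a (ofBasis (B n).toBasis (l n)) ≤ c) → a (ofBasis B'.toBasis l') ≤ c

theorem Dom.congr {H : Submodule 𝕜 V} {F G : Wt 𝕜 V} (hF : Dom H F)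
    (h : ∀ x, x ≠ 0 → F.w x = G.w x) : Dom H G := by
  refine ⟨fun x hx => (h x hx) ▸ hF.1 x hx, fun x hx => ?_⟩
  by_cases h0 : x = 0
  · rw [h0]; exact H.zero_mem
  · exact hF.2 (fun _ => by rw [h x h0]; exact hx h0)

theorem dom_ofBasis {H : Submodule 𝕜 V} {ι : Type*} (b : Basis ι 𝕜 V) {l : ι → ℝ}
    (h0 : ∀ i, 0 ≤ l i) (h1 : ∀ i, 0 < l i → b i ∈ H) : Dom H (ofBasis b l) := by
  constructor
  · intro x hx
    rw [le_ofBasis_iff b l hx]
    exact fun i _ => h0 i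
  · intro x hx
    rw [(ofBasis_adapted b l).mem_subGt_iff] at hx
    exact Compat.mem_of_forall (fun i hi => h1 i (by have := hx i hi; rwa [ofBasis_basis] at this))

theorem Dom.weights {H : Submodule 𝕜 V} {F : Wt 𝕜 V} (hF : Dom H F) {ι : Type*}
    (b : Basis ι 𝕜 V) : (∀ i, 0 ≤ F.w (b i)) ∧ ∀ i, 0 < F.w (b i) → b i ∈ H :=
  ⟨fun i => hF.1 _ (b.ne_zero i), fun _ hi => hF.2 (fun _ => hi)⟩

namespace Slope

variable {H : Submodule 𝕜 V} (A : Slope H)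

theorem congr {F G : Wt 𝕜 V} (hF : Dom H F) (h : ∀ x, x ≠ 0 → F.w x = G.w x) :
    A.a F = A.a G :=
  le_antisymm (A.mono' F G hF (hF.congr h) (fun x hx => (h x hx).le))
    (A.mono' G F (hF.congr h) hF (fun x hx => (h x hx).ge))

/-- The value on `F` in terms of an adapted basis. -/
theorem eq_ofBasis {F : Wt 𝕜 V} (hF : Dom H F) {ι : Type*} {b : Basis ι 𝕜 V} (hb : F.Adapted b) :
    A.a F = A.a (ofBasis b (fun i => F.w (b i))) :=
  A.congr hF (fun _ hx => hb.w_eq_ofBasis (fun _ => rfl) hx)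

theorem eq_ofBasis_of_eq {F : Wt 𝕜 V} (hF : Dom H F) {ι : Type*} {b : Basis ι 𝕜 V}
    (hb : F.Adapted b) {l : ι → ℝ} (hl : ∀ i, F.w (b i) = l i) :
    A.a F = A.a (ofBasis b l) :=
  A.congr hF (fun _ hx => hb.w_eq_ofBasis hl hx)

/-- Convexity on apartments. -/
theorem convex (b : Basis (Fin (finrank 𝕜 V)) 𝕜 V) {l l' : Fin (finrank 𝕜 V) → ℝ}
    (h0 : ∀ i, 0 ≤ l i) (h1 : ∀ i, 0 < l i → b i ∈ H) (h0' : ∀ i, 0 ≤ l' i)
    (h1' : ∀ i, 0 < l' i → b i ∈ H) {s : ℝ} (hs0 : 0 < s) (hs1 : s < 1) :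
    A.a (ofBasis b (fun i => (1 - s) * l i + s * l' i))
      ≤ (1 - s) * A.a (ofBasis b l) + s * A.a (ofBasis b l') := by
  have hs1' : 0 < 1 - s := by linarith
  have e1 : ∀ i, 0 ≤ (1 - s) * l i := fun i => mul_nonneg hs1'.le (h0 i)
  have e2 : ∀ i, 0 ≤ s * l' i := fun i => mul_nonneg hs0.le (h0' i)
  have e3 : ∀ i, 0 < (1 - s) * l i → b i ∈ H := fun i hi => h1 i (by
    rcases (h0 i).eq_or_lt with h | h
    · rw [← h] at hi; simp at hi
    · exact h)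
  have e4 : ∀ i, 0 < s * l' i → b i ∈ H := fun i hi => h1' i (by
    rcases (h0' i).eq_or_lt with h | h
    · rw [← h] at hi; simp at hi
    · exact h)
  have h := A.add' b _ _ e1 e3 e2 e4
  rwa [A.smul' b l (1 - s) hs1' h0 h1, A.smul' b l' s hs0 h0' h1'] at h

/-- The value of the zero filtration. -/
theorem zero_eq (b : Basis (Fin (finrank 𝕜 V)) 𝕜 V) : A.a (ofBasis b (fun _ => 0)) = 0 := by
  have h := A.smul' b (fun _ => 0) 2 (by norm_num) (fun _ => le_rfl)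
    (fun i hi => absurd hi (lt_irrefl _))
  simp only [mul_zero] at h
  linarith

end Slope

/-! ### The penalty -/

theorem monotone_sq : Monotone (fun t : ℝ => (max t 0) ^ 2) := fun s t hst => by
  have h : max s 0 ≤ max t 0 := max_le_max_right 0 hst
  exact pow_le_pow_left₀ (le_max_right _ _) h 2

/-- The sum of the squares of the weights. -/
noncomputable def Sq (F : Wt 𝕜 V) : ℝ :=
  (mapMono F (fun t => (max t 0) ^ 2) monotone_sq).T

theorem Sq_eq {F : Wt 𝕜 V} (h0 : ∀ x, x ≠ 0 → 0 ≤ F.w x) {ι : Type*} [Fintype ι]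
    {b : Basis ι 𝕜 V} (hb : F.Adapted b) : Sq F = ∑ i, (F.w (b i)) ^ 2 := by
  rw [Sq, ← (mapMono_adapted _ hb).sum_eq]
  refine Finset.sum_congr rfl (fun i _ => ?_)
  rw [mapMono_w, max_eq_left (h0 _ (b.ne_zero i))]

/-! ### The coefficients `κ` -/

open Classical in
/-- `κ(x) = ∑_{Q ∌ x} θ_Q`. -/
noncomputable def kap (S : Finset (Submodule 𝕜 V)) (θ : Submodule 𝕜 V → ℝ) (x : V) : ℝ :=
  ∑ Q ∈ S.filter (fun Q => x ∉ Q), θ Q

theorem sum_TQ {S : Finset (Submodule 𝕜 V)} {θ : Submodule 𝕜 V → ℝ} {F : Wt 𝕜 V} {ι : Type*}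
    [Fintype ι] {b : Basis ι 𝕜 V} (hb : F.Adapted b) (hc : ∀ Q ∈ S, Compat b Q) :
    ∑ Q ∈ S, θ Q * F.TQ Q = ∑ i, kap S θ (b i) * F.w (b i) := by
  classical
  have h1 : ∀ Q ∈ S, θ Q * F.TQ Q = ∑ i, if b i ∉ Q then θ Q * F.w (b i) else 0 := by
    intro Q hQ
    rw [TQ_eq_sum hb (hc Q hQ), Finset.mul_sum, Finset.sum_filter]
  rw [Finset.sum_congr rfl h1, Finset.sum_comm]
  refine Finset.sum_congr rfl (fun i _ => ?_)
  rw [kap, Finset.sum_mul, Finset.sum_filter]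

theorem abs_kap_le (S : Finset (Submodule 𝕜 V)) (θ : Submodule 𝕜 V → ℝ) (x : V) :
    |kap S θ x| ≤ ∑ Q ∈ S, |θ Q| := by
  classical
  unfold kap
  refine (Finset.abs_sum_le_sum_abs _ _).trans ?_
  exact Finset.sum_le_sum_of_subset_of_nonneg (Finset.filter_subset _ _)
    (fun _ _ _ => abs_nonneg _)

/-! ### The functional -/

variable {H : Submodule 𝕜 V}

/-- The penalised functional `Φ(F) = a(F) - ∑_Q θ_Q TQ_Q(F) + ∑ λ_i²`. -/
noncomputable def Phi (A : Slope H) (S : Finset (Submodule 𝕜 V)) (θ : Submodule 𝕜 V → ℝ)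
    (F : Wt 𝕜 V) : ℝ := A.a F - ∑ Q ∈ S, θ Q * F.TQ Q + Sq F

/-- The class of filtrations in the domain with the members of `S` as weak steps. -/
def Cls (H : Submodule 𝕜 V) (S : Finset (Submodule 𝕜 V)) (F : Wt 𝕜 V) : Prop :=
  Dom H F ∧ ∀ Q ∈ S, WeakStep F Q

theorem Phi_eq (A : Slope H) {S : Finset (Submodule 𝕜 V)} {θ : Submodule 𝕜 V → ℝ} {F : Wt 𝕜 V}
    (hF : Dom H F) {ι : Type*} [Fintype ι] {b : Basis ι 𝕜 V} (hb : F.Adapted b)
    (hc : ∀ Q ∈ S, Compat b Q) :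
    Phi A S θ F = A.a F - ∑ i, kap S θ (b i) * F.w (b i) + ∑ i, (F.w (b i)) ^ 2 := by
  rw [Phi, sum_TQ hb hc, Sq_eq hF.1 hb]

theorem sum_sq_le (A : Slope H) {S : Finset (Submodule 𝕜 V)} {θ : Submodule 𝕜 V → ℝ}
    {F : Wt 𝕜 V} (hF : Dom H F) {ι : Type*} [Fintype ι] {b : Basis ι 𝕜 V} (hb : F.Adapted b)
    (hc : ∀ Q ∈ S, Compat b Q) :
    ∑ i, (F.w (b i) - (∑ Q ∈ S, |θ Q|) / 2) ^ 2 - Fintype.card ι * (∑ Q ∈ S, |θ Q|) ^ 2 / 4
      ≤ Phi A S θ F := by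
  rw [Phi_eq A hF hb hc]
  set M := ∑ Q ∈ S, |θ Q| with hM
  have h1 : ∑ i, (F.w (b i) - M / 2) ^ 2 - Fintype.card ι * M ^ 2 / 4
      = ∑ i, ((F.w (b i)) ^ 2 - M * F.w (b i)) := by
    have : ∀ i, (F.w (b i) - M / 2) ^ 2 = ((F.w (b i)) ^ 2 - M * F.w (b i)) + M ^ 2 / 4 := by
      intro i; ring
    simp_rw [this]
    rw [Finset.sum_add_distrib, Finset.sum_const, Finset.card_univ, nsmul_eq_mul]
    ring
  rw [h1, Finset.sum_sub_distrib]
  have h2 : ∑ i, kap S θ (b i) * F.w (b i) ≤ ∑ i, M * F.w (b i) := by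
    refine Finset.sum_le_sum (fun i _ => ?_)
    exact mul_le_mul_of_nonneg_right ((le_abs_self _).trans (abs_kap_le S θ _))
      (hF.1 _ (b.ne_zero i))
  have h3 := A.nonneg' F hF
  linarith

theorem limit_mem {N : ℕ} (hN : finrank 𝕜 V = N) {Q : Submodule 𝕜 V}
    {B : ℕ → OrthonormalBasis (Fin N) 𝕜 V} {B' : OrthonormalBasis (Fin N) 𝕜 V}
    (hlim : ∀ i, Tendsto (fun n => B n i) atTop (𝓝 (B' i)))
    (hmem : ∀ n i, B n i ∈ Q ↔ (i : ℕ) < finrank 𝕜 Q) :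
    Compat B'.toBasis Q ∧ ∀ i, B' i ∈ Q ↔ (i : ℕ) < finrank 𝕜 Q := by
  classical
  have hcl : IsClosed (Q : Set V) := Q.closed_of_finiteDimensional
  have h1 : ∀ i : Fin N, (i : ℕ) < finrank 𝕜 Q → B' i ∈ Q := by
    intro i hi
    exact hcl.mem_of_tendsto (hlim i) (Eventually.of_forall (fun n => (hmem n i).2 hi))
  have hle : finrank 𝕜 Q ≤ N := hN ▸ Submodule.finrank_le Q
  have hspan : Submodule.span 𝕜 (B'.toBasis '' {i : Fin N | (i : ℕ) < finrank 𝕜 Q}) = Q := by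
    apply Submodule.eq_of_le_of_finrank_eq
    · rw [Submodule.span_le]
      rintro _ ⟨i, hi, rfl⟩
      rw [OrthonormalBasis.coe_toBasis]
      exact h1 i hi
    · have h3 : LinearIndependent 𝕜
          (fun j : {i : Fin N // (i : ℕ) < finrank 𝕜 Q} => B'.toBasis j) :=
        B'.toBasis.linearIndependent.comp _ Subtype.val_injective
      have h4 : B'.toBasis '' {i : Fin N | (i : ℕ) < finrank 𝕜 Q}
          = Set.range (fun j : {i : Fin N // (i : ℕ) < finrank 𝕜 Q} => B'.toBasis j) := by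
        ext y; simp [Set.mem_image]
      rw [h4, finrank_span_eq_card h3, Fintype.card_subtype, Fin.card_filter_val_lt,
        min_eq_right hle]
  have hc : ∀ x ∈ Q, ∀ i, B'.toBasis.repr x i ≠ 0 → (i : ℕ) < finrank 𝕜 Q := by
    intro x hx i hi
    rw [← hspan, Basis.mem_span_image] at hx
    exact hx (by simpa using hi)
  refine ⟨fun x hx i hi => ?_, fun i => ⟨fun hi => ?_, h1 i⟩⟩
  · rw [OrthonormalBasis.coe_toBasis]; exact h1 i (hc x hx i hi)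
  · refine hc (B' i) hi i ?_
    have : B' i = B'.toBasis i := by rw [OrthonormalBasis.coe_toBasis]
    rw [this, Basis.repr_self]
    simp

theorem kap_congr {S : Finset (Submodule 𝕜 V)} {θ : Submodule 𝕜 V → ℝ} {x y : V}
    (h : ∀ Q ∈ S, x ∈ Q ↔ y ∈ Q) : kap S θ x = kap S θ y := by
  classical
  unfold kap
  congr 1
  refine Finset.filter_congr (fun Q hQ => ?_)
  rw [h Q hQ]

/-- **Existence of minimisers.** -/
theorem exists_min (A : Slope H) (S : Finset (Submodule 𝕜 V)) (θ : Submodule 𝕜 V → ℝ)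
    (hS : ∀ P ∈ S, ∀ Q ∈ S, P ≤ Q ∨ Q ≤ P) :
    ∃ F, Cls H S F ∧ ∀ G, Cls H S G → Phi A S θ F ≤ Phi A S θ G := by
  classical
  obtain ⟨N, hN⟩ : ∃ N : ℝ, ((finrank 𝕜 V : ℕ) : ℝ) = N := ⟨_, rfl⟩
  set M := ∑ Q ∈ S, |θ Q| with hM
  -- the infimum
  let vals : Set ℝ := {r | ∃ G, Cls H S G ∧ Phi A S θ G = r}
  have hlow : ∀ G, Cls H S G → -(N * M ^ 2 / 4) ≤ Phi A S θ G := by
    intro G hG
    obtain ⟨B, hB, -, hc, -⟩ := exists_orthonormal_flag G S hS hG.2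
    have h := sum_sq_le (θ := θ) A hG.1 hB hc
    rw [Fintype.card_fin] at h
    have h2 : 0 ≤ ∑ i, (G.w (B.toBasis i) - (∑ Q ∈ S, |θ Q|) / 2) ^ 2 :=
      Finset.sum_nonneg (fun i _ => sq_nonneg _)
    rw [← hM] at h h2
    rw [hN] at h
    linarith
  have hbdd : BddBelow vals := ⟨-(N * M ^ 2 / 4), by
    rintro r ⟨G, hG, rfl⟩; exact hlow G hG⟩
  obtain ⟨b0, -⟩ : ∃ b0 : Basis (Fin (finrank 𝕜 V)) 𝕜 V, True := ⟨finBasis 𝕜 V, trivial⟩
  have hne : vals.Nonempty := by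
    refine ⟨_, ofBasis b0 (fun _ => 0), ⟨dom_ofBasis b0 (fun _ => le_rfl)
      (fun i hi => absurd hi (lt_irrefl _)), fun Q _ => ⟨0, ?_, ?_⟩⟩, rfl⟩
    · intro x hx
      have h0 : x = 0 := by
        by_contra h0
        have h1 := hx h0
        obtain ⟨i, hi, heq⟩ := (ofBasis_adapted b0 (fun _ => (0 : ℝ))).exists_eq h0
        rw [heq, ofBasis_basis] at h1
        exact lt_irrefl _ h1
      rw [h0]; exact Q.zero_mem
    · intro x _ h0
      rw [le_ofBasis_iff _ _ h0]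
      exact fun _ _ => le_rfl
  set I := sInf vals with hI
  have hseq : ∀ n : ℕ, ∃ G, Cls H S G ∧ Phi A S θ G < I + 1 / ((n : ℝ) + 1) := by
    intro n
    have hpos : (0 : ℝ) < 1 / ((n : ℝ) + 1) := by positivity
    obtain ⟨r, ⟨G, hG, rfl⟩, hr⟩ := exists_lt_of_csInf_lt hne (show sInf vals < I + 1 / ((n : ℝ) + 1)
      by rw [← hI]; linarith)
    exact ⟨G, hG, hr⟩
  choose G hG hGI using hseq
  choose B0 hB0 hanti0 hc0 hord0 using fun n => exists_orthonormal_flag (G n) S hS (hG n).2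
  -- bounds for the weights
  set C := I + 1 + N * M ^ 2 / 4 with hC
  have hwb : ∀ n i, (G n).w (B0 n i) ≤ M / 2 + (C + 1) := by
    intro n i
    have h := sum_sq_le (θ := θ) A (hG n).1 (hB0 n) (hc0 n)
    rw [Fintype.card_fin, ← hM, hN] at h
    have h1 := hGI n
    have h2 : 1 / ((n : ℝ) + 1) ≤ 1 := by
      rw [div_le_one (by positivity)]
      have : (0 : ℝ) ≤ n := Nat.cast_nonneg n
      linarith
    have h3 : ((G n).w ((B0 n).toBasis i) - M / 2) ^ 2 ≤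
        ∑ i, ((G n).w ((B0 n).toBasis i) - M / 2) ^ 2 :=
      Finset.single_le_sum (f := fun i => ((G n).w ((B0 n).toBasis i) - M / 2) ^ 2)
        (fun _ _ => sq_nonneg _) (Finset.mem_univ i)
    have h4 : ((G n).w ((B0 n).toBasis i) - M / 2) ^ 2 ≤ C := by
      rw [hC]; linarith
    rw [OrthonormalBasis.coe_toBasis] at h4
    nlinarith [sq_nonneg ((G n).w (B0 n i) - M / 2 - 1)]
  have hw0 : ∀ n i, 0 ≤ (G n).w (B0 n i) := fun n i =>
    (hG n).1.1 _ ((B0 n).orthonormal.ne_zero i)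
  -- convergent subsequences
  obtain ⟨φ, B', hφ, hlimB⟩ := exists_subseq_orthonormal (𝕜 := 𝕜) (V := V) rfl B0
  have hcomp : IsCompact (Set.pi Set.univ
      (fun _ : Fin (finrank 𝕜 V) => Set.Icc (0 : ℝ) (M / 2 + (C + 1)))) :=
    isCompact_univ_pi (fun _ => isCompact_Icc)
  obtain ⟨l', hl', ψ, hψ, hlimL⟩ := hcomp.tendsto_subseq
    (x := fun n => fun i => (G (φ n)).w (B0 (φ n) i)) (fun n i _ => ⟨hw0 _ _, hwb _ _⟩)
  have hlimL' : ∀ i, Tendsto (fun n => (G (φ (ψ n))).w (B0 (φ (ψ n)) i)) atTop (𝓝 (l' i)) :=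
    fun i => (tendsto_pi_nhds.1 hlimL) i
  have hlimB' : ∀ i, Tendsto (fun n => B0 (φ (ψ n)) i) atTop (𝓝 (B' i)) :=
    fun i => (hlimB i).comp hψ.tendsto_atTop
  have hl0 : ∀ i, 0 ≤ l' i := fun i => (hl' i (Set.mem_univ i)).1
  have hlH : ∀ i, 0 < l' i → B' i ∈ H := by
    intro i hi
    have hcl : IsClosed (H : Set V) := H.closed_of_finiteDimensional
    refine hcl.mem_of_tendsto (hlimB' i) ?_
    filter_upwards [(hlimL' i).eventually (lt_mem_nhds hi)] with n hn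
    exact (hG _).1.2 (fun _ => hn)
  have hlanti : Antitone l' := by
    intro i j hij
    exact le_of_tendsto_of_tendsto' (hlimL' j) (hlimL' i) (fun n => hanti0 _ hij)
  have hmemQ : ∀ Q ∈ S, ∀ n i, B0 n i ∈ Q ↔ (i : ℕ) < finrank 𝕜 Q := by
    intro Q hQ n i
    have h := mem_iff_lt_finrank (hc0 n Q hQ) (fun i j hi hj => hord0 n Q hQ i j
      (by rwa [OrthonormalBasis.coe_toBasis] at hi) (by rwa [OrthonormalBasis.coe_toBasis] at hj)) i
    rwa [OrthonormalBasis.coe_toBasis] at h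
  have hlimQ : ∀ Q ∈ S, Compat B'.toBasis Q ∧ ∀ i, B' i ∈ Q ↔ (i : ℕ) < finrank 𝕜 Q :=
    fun Q hQ => limit_mem rfl hlimB' (fun n i => hmemQ Q hQ _ i)
  have hcoe : ∀ i, B'.toBasis i = B' i := fun i => by rw [OrthonormalBasis.coe_toBasis]
  have hdom : Dom H (ofBasis B'.toBasis l') :=
    dom_ofBasis B'.toBasis hl0 (fun i hi => by rw [hcoe]; exact hlH i hi)
  have hcls : Cls H S (ofBasis B'.toBasis l') := by
    refine ⟨hdom, fun Q hQ => ?_⟩
    refine weakStep_of_le (ofBasis_adapted _ _) (hlimQ Q hQ).1 (fun i j hi hj => ?_)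
    rw [ofBasis_basis, ofBasis_basis]
    rw [hcoe, (hlimQ Q hQ).2] at hi hj
    exact hlanti (Fin.le_def.2 (by omega))
  refine ⟨ofBasis B'.toBasis l', hcls, fun G' hG' => ?_⟩
  have hIle : I ≤ Phi A S θ G' := csInf_le hbdd ⟨G', hG', rfl⟩
  refine le_trans ?_ hIle
  -- the lower semicontinuity
  set u' : ℝ := ∑ i, kap S θ (B' i) * l' i - ∑ i, (l' i) ^ 2 with hu'
  have hu : Tendsto (fun n => ∑ i, kap S θ (B' i) * (G (φ (ψ n))).w (B0 (φ (ψ n)) i)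
      - ∑ i, ((G (φ (ψ n))).w (B0 (φ (ψ n)) i)) ^ 2) atTop (𝓝 u') := by
    refine Tendsto.sub ?_ ?_
    · exact tendsto_finsetSum _ (fun i _ => (hlimL' i).const_mul _)
    · exact tendsto_finsetSum _ (fun i _ => (hlimL' i).pow 2)
  have hPhin : ∀ n, Phi A S θ (G n) = A.a (G n) - ∑ i, kap S θ (B' i) * (G n).w (B0 n i)
      + ∑ i, ((G n).w (B0 n i)) ^ 2 := by
    intro n
    rw [Phi_eq A (hG n).1 (hB0 n) (hc0 n)]
    simp only [OrthonormalBasis.coe_toBasis]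
    congr 2
    refine Finset.sum_congr rfl (fun i _ => ?_)
    congr 1
    refine kap_congr (fun Q hQ => ?_)
    rw [hmemQ Q hQ, (hlimQ Q hQ).2]
  have hPhi' : Phi A S θ (ofBasis B'.toBasis l') = A.a (ofBasis B'.toBasis l') - u' := by
    rw [Phi_eq A hdom (ofBasis_adapted _ _) (fun Q hQ => (hlimQ Q hQ).1), hu']
    simp only [ofBasis_basis]
    simp only [hcoe]
    ring
  have ha : A.a (ofBasis B'.toBasis l') ≤ I + u' := by
    refine le_of_forall_pos_le_add (fun ε hε => ?_)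
    refine A.lsc' (fun n => B0 (φ (ψ n))) B' (fun n i => (G (φ (ψ n))).w (B0 (φ (ψ n)) i)) l' _
      hlimB' hlimL' (fun n i => hw0 _ _) (fun n i hi => (hG _).1.2 (fun _ => hi)) ?_
    have h1 : Tendsto (fun n : ℕ => (1 : ℝ) / ((φ (ψ n) : ℝ) + 1)) atTop (𝓝 0) := by
      have h2 : Tendsto (fun n : ℕ => (1 : ℝ) / ((n : ℝ) + 1)) atTop (𝓝 0) :=
        tendsto_one_div_add_atTop_nhds_zero_nat
      exact h2.comp (hφ.comp hψ).tendsto_atTop
    have h3 := h1.add hu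
    rw [zero_add] at h3
    filter_upwards [h3.eventually (gt_mem_nhds (show u' < u' + ε by linarith))] with n hn
    have h4 := hGI (φ (ψ n))
    rw [hPhin] at h4
    have h5 : A.a (G (φ (ψ n))) = A.a (ofBasis (B0 (φ (ψ n))).toBasis
        (fun i => (G (φ (ψ n))).w (B0 (φ (ψ n)) i))) :=
      A.eq_ofBasis_of_eq (hG _).1 (hB0 _) (fun i => by rw [OrthonormalBasis.coe_toBasis])
    rw [← h5]
    linarith
  rw [hPhi']
  linarith

end Vale.Agent.P271.Var
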