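import Vale.Agent.P271.Var.Step

/-!
# P271 / Var : the next stage of the chain (helper366)
-/

set_option linter.unusedSectionVars false

namespace Vale.Agent.P271.Var

open Module Filter Topology
open Vale.Agent.P271.Filt Vale.Agent.P271.Filt.Wt

variable {𝕜 : Type*} [RCLike 𝕜] {V : Type*} [NormedAddCommGroup V] [InnerProductSpace 𝕜 V]
  [FiniteDimensional 𝕜 V] {H : Submodule 𝕜 V}

/-- A gap for the values of a filtration. -/
theorem exists_gap (F : Wt 𝕜 V) : ∃ γ : ℝ, 0 < γ ∧ ∀ x y : V, x ≠ 0 → y ≠ 0 → F.w x < F.w y →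
    F.w x + γ ≤ F.w y := by
  classical
  set s : Finset ℝ := F.finite_values.toFinset with hs
  set D : Finset ℝ := ((s ×ˢ s).image (fun p => p.2 - p.1)).filter (fun r => 0 < r) with hD
  by_cases hne : D.Nonempty
  · obtain ⟨γ, hγ, hmin⟩ := D.exists_min_image id hne
    refine ⟨γ, (Finset.mem_filter.1 hγ).2, fun x y hx hy hxy => ?_⟩
    have hmem : F.w y - F.w x ∈ D := by
      rw [hD, Finset.mem_filter, Finset.mem_image]
      refine ⟨⟨(F.w x, F.w y), ?_, rfl⟩, by linarith⟩
      rw [Finset.mem_product]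
      exact ⟨by rw [hs, Set.Finite.mem_toFinset]; exact ⟨x, hx, rfl⟩,
        by rw [hs, Set.Finite.mem_toFinset]; exact ⟨y, hy, rfl⟩⟩
    have := hmin _ hmem
    simp only [id] at this
    linarith
  · refine ⟨1, one_pos, fun x y hx hy hxy => ?_⟩
    exfalso
    apply hne
    refine ⟨F.w y - F.w x, ?_⟩
    rw [hD, Finset.mem_filter, Finset.mem_image]
    refine ⟨⟨(F.w x, F.w y), ?_, rfl⟩, by linarith⟩
    rw [Finset.mem_product]
    exact ⟨by rw [hs, Set.Finite.mem_toFinset]; exact ⟨x, hx, rfl⟩,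
      by rw [hs, Set.Finite.mem_toFinset]; exact ⟨y, hy, rfl⟩⟩

/-- A stage of the chain: `F` is a minimiser, `P = F^{>0}` strictly contains all the previous
centres, the coefficients are nonnegative. -/
structure State (A : Slope H) (S : Finset (Submodule 𝕜 V)) (θ : Submodule 𝕜 V → ℝ)
    (F : Wt 𝕜 V) : Prop extends Minz A S θ F where
  lt : ∀ Q ∈ S, Q < F.subGt 0
  nonneg : ∀ Q ∈ S, 0 ≤ θ Q

variable {A : Slope H} {S : Finset (Submodule 𝕜 V)} {θ : Submodule 𝕜 V → ℝ} {F : Wt 𝕜 V}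

theorem State.notMem (h : State A S θ F) : F.subGt 0 ∉ S := fun hm => lt_irrefl _ (h.lt _ hm)

open Classical in
theorem State.step_insert (h : State A S θ F) : ∀ Q ∈ insert (F.subGt 0) S, F.Step Q := by
  intro Q hQ
  rcases Finset.mem_insert.1 hQ with rfl | hQ
  · exact F.step_subGt 0
  · exact h.step Q hQ

theorem nested_of_step {S : Finset (Submodule 𝕜 V)} (h : ∀ Q ∈ S, F.Step Q) :
    ∀ P ∈ S, ∀ Q ∈ S, P ≤ Q ∨ Q ≤ P := fun P hP Q hQ => (h P hP).le_total (h Q hQ)

open Classical in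
/-- `Φ` after the insertion of a new subspace. -/
theorem Phi_insert {P : Submodule 𝕜 V} (hP : P ∉ S) (c : ℝ) (G : Wt 𝕜 V) :
    Phi A (insert P S) (Function.update θ P c) G = Phi A S θ G - c * G.TQ P := by
  unfold Phi
  rw [Finset.sum_insert hP, Function.update_self]
  have : ∑ Q ∈ S, Function.update θ P c Q * G.TQ Q = ∑ Q ∈ S, θ Q * G.TQ Q := by
    refine Finset.sum_congr rfl (fun Q hQ => ?_)
    rw [Function.update_of_ne]
    rintro rfl
    exact hP hQ
  rw [this]
  ring

theorem Cls.mono {S S' : Finset (Submodule 𝕜 V)} (h : S ⊆ S') {G : Wt 𝕜 V} (hG : Cls H S' G) :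
    Cls H S G := ⟨hG.1, fun Q hQ => hG.2 Q (h hQ)⟩

open Classical in
/-- **The next stage.** There is a constant `c ≥ 0` such that `F` is still a minimiser with the
additional term `c · TQ_P`, `P = F^{>0}`, and for arbitrarily small `s > 0` there is a stage `F'`
with the constant `c + s` at `P`, close to `F`, with `F'^{>0}` strictly larger than `P`. -/
theorem State.next (h : State A S θ F) (hPH : F.subGt 0 ≠ H) :
    ∃ c : ℝ, 0 ≤ c ∧
      Minz A (insert (F.subGt 0) S) (Function.update θ (F.subGt 0) c) F ∧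
      ∀ ε : ℝ, 0 < ε → ∃ (s : ℝ) (F' : Wt 𝕜 V), 0 < s ∧ s < ε ∧
        State A (insert (F.subGt 0) S) (Function.update θ (F.subGt 0) (c + s)) F' ∧
        F.subGt 0 < F'.subGt 0 ∧ ∀ x, x ≠ 0 → F'.w x ≤ F.w x + ε := by
  set P := F.subGt 0 with hP
  have hPS : P ∉ S := h.notMem
  have hPle : P ≤ H := h.dom.2
  have hPlt : P < H := lt_of_le_of_ne hPle hPH
  set S' := insert P S with hS'
  have hstep : ∀ Q ∈ S', F.Step Q := h.step_insert
  have hnest : ∀ R ∈ S', ∀ Q ∈ S', R ≤ Q ∨ Q ≤ R := nested_of_step hstep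
  have hQP : ∀ Q ∈ S', Q ≤ P := by
    intro Q hQ
    rcases Finset.mem_insert.1 hQ with rfl | hQ
    · exact le_rfl
    · exact (h.lt Q hQ).le
  have hTQF : F.TQ P = 0 := TQ_eq_zero h.dom.1 le_rfl
  have hclsF : ∀ G, Cls H S' G → Cls H S G := fun G hG => hG.mono (Finset.subset_insert _ _)
  -- a competitor with positive `TQ P`
  obtain ⟨G1, hG1, hG1pos⟩ : ∃ G1, Cls H S' G1 ∧ 0 < G1.TQ P := by
    obtain ⟨b, hb, hc⟩ := F.exists_adapted_compat H
    obtain ⟨i0, hi0, hi0'⟩ : ∃ i0, b i0 ∈ H ∧ b i0 ∉ P := by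
      by_contra hcon
      push Not at hcon
      apply hPlt.not_ge
      intro x hx
      exact Compat.mem_of_forall (b := b) (fun i hi => hcon i (hc x hx i hi))
    let l1 : Fin (finrank 𝕜 V) → ℝ := fun i => if b i ∈ P ∨ i = i0 then 1 else 0
    have hl0 : ∀ i, 0 ≤ l1 i := fun i => by simp only [l1]; split_ifs <;> norm_num
    have hl1 : ∀ i, 0 < l1 i → b i ∈ H := by
      intro i hi
      simp only [l1] at hi
      split_ifs at hi with hh
      · rcases hh with hh | hh
        · exact hPle hh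
        · rw [hh]; exact hi0
      · exact absurd hi (lt_irrefl _)
    have hdm := dom_ofBasis b hl0 hl1
    refine ⟨ofBasis b l1, ⟨hdm, fun Q hQ => ?_⟩, ?_⟩
    · refine weakStep_of_le (ofBasis_adapted _ _) ((hstep Q hQ).compat hb) (fun i j hi hj => ?_)
      rw [ofBasis_basis, ofBasis_basis]
      have : l1 i = 1 := if_pos (Or.inl (hQP Q hQ hi))
      rw [this]
      simp only [l1]
      split_ifs <;> norm_num
    · rw [TQ_pos_iff hdm.1]
      refine ⟨b i0, hi0', ?_⟩
      rw [ofBasis_basis]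
      simp [l1]
  -- the critical constant
  let Cc : Set ℝ := {c | 0 ≤ c ∧ ∀ G, Cls H S' G → Phi A S θ F ≤ Phi A S θ G - c * G.TQ P}
  have hC0 : (0 : ℝ) ∈ Cc := ⟨le_rfl, fun G hG => by
    rw [zero_mul, sub_zero]; exact h.min G (hclsF G hG)⟩
  have hCbdd : BddAbove Cc := by
    refine ⟨(Phi A S θ G1 - Phi A S θ F) / G1.TQ P, ?_⟩
    rintro c ⟨-, hc⟩
    rw [le_div_iff₀ hG1pos]
    have := hc G1 hG1
    linarith
  set c := sSup Cc with hc
  have hc0 : 0 ≤ c := le_csSup hCbdd hC0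
  have hcC : ∀ G, Cls H S' G → Phi A S θ F ≤ Phi A S θ G - c * G.TQ P := by
    intro G hG
    rcases (TQ_nonneg hG.1.1 P).eq_or_lt with h0 | h0
    · rw [← h0, mul_zero, sub_zero]; exact h.min G (hclsF G hG)
    · have : c ≤ (Phi A S θ G - Phi A S θ F) / G.TQ P := by
        refine csSup_le ⟨0, hC0⟩ ?_
        rintro c' ⟨-, hc'⟩
        rw [le_div_iff₀ h0]
        have := hc' G hG
        linarith
      rw [le_div_iff₀ h0] at this
      linarith
  have hPhiF : ∀ c' : ℝ, Phi A S' (Function.update θ P c') F = Phi A S θ F := by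
    intro c'
    rw [hS', Phi_insert hPS, hTQF, mul_zero, sub_zero]
  have hMin : Minz A S' (Function.update θ P c) F := by
    refine ⟨h.dom, hstep, fun G hG => ?_⟩
    rw [hPhiF, hS', Phi_insert hPS]
    exact hcC G hG
  refine ⟨c, hc0, hMin, fun ε hε => ?_⟩
  obtain ⟨γ, hγ, hgap⟩ := exists_gap F
  set δ := min (γ / 3) ε with hδ
  have hδ0 : 0 < δ := lt_min (by linarith) hε
  have hδγ : δ ≤ γ / 3 := min_le_left _ _
  have hδε : δ ≤ ε := min_le_right _ _
  -- choice of `s`
  set TT := F.T with hTT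
  have hT0 : 0 ≤ TT := by
    rw [hTT, ← F.adapted_adb.sum_eq]
    exact Finset.sum_nonneg (fun i _ => h.dom.1 _ (F.adb.ne_zero i))
  obtain ⟨N, hN⟩ : ∃ N : ℝ, ((finrank 𝕜 V : ℕ) : ℝ) = N := ⟨_, rfl⟩
  have hN0 : 0 ≤ N := by rw [← hN]; exact Nat.cast_nonneg _
  set W := 2 * TT + N + 1 with hW
  have hW0 : 0 < W := by rw [hW]; linarith
  obtain ⟨s, hs0, hsε, hs1, hsδ⟩ : ∃ s : ℝ, 0 < s ∧ s < ε ∧ s ≤ 1 ∧ s * W < δ ^ 2 := by
    have hpos : 0 < δ ^ 2 / W := by positivity
    refine ⟨min (ε / 2) (min 1 (δ ^ 2 / W / 2)), ?_, ?_, ?_, ?_⟩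
    · exact lt_min (by linarith) (lt_min one_pos (by linarith))
    · exact (min_le_left _ _).trans_lt (by linarith)
    · exact (min_le_right _ _).trans (min_le_left _ _)
    · have h1 : min (ε / 2) (min 1 (δ ^ 2 / W / 2)) ≤ δ ^ 2 / W / 2 :=
        (min_le_right _ _).trans (min_le_right _ _)
      have h2 : min (ε / 2) (min 1 (δ ^ 2 / W / 2)) * W ≤ δ ^ 2 / W / 2 * W :=
        mul_le_mul_of_nonneg_right h1 hW0.le
      have h3 : δ ^ 2 / W / 2 * W = δ ^ 2 / 2 := by field_simp
      rw [h3] at h2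
      have : 0 < δ ^ 2 := by positivity
      linarith
  obtain ⟨G, hG, hGmin⟩ := exists_min A S' (Function.update θ P (c + s)) hnest
  obtain ⟨b, hbF, hbG⟩ := F.exists_adapted₂ G
  -- `G` is better than `F`
  have hGlt : Phi A S' (Function.update θ P (c + s)) G < Phi A S θ F := by
    have hnot : c + s ∉ Cc := fun hm => absurd (le_csSup hCbdd hm) (by rw [← hc]; linarith)
    obtain ⟨G2, hG2, hG2lt⟩ : ∃ G2, Cls H S' G2 ∧
        Phi A S θ G2 - (c + s) * G2.TQ P < Phi A S θ F := by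
      by_contra hcon
      push Not at hcon
      exact hnot ⟨by linarith, hcon⟩
    refine (hGmin G2 hG2).trans_lt ?_
    rw [hS', Phi_insert hPS]
    exact hG2lt
  have hstrong := hMin.strong hG.1 hbF hbG
  rw [hPhiF] at hstrong
  have hrel : Phi A S' (Function.update θ P (c + s)) G
      = Phi A S' (Function.update θ P c) G - s * G.TQ P := by
    rw [hS', Phi_insert hPS, Phi_insert hPS]; ring
  set D := ∑ i, (G.w (b i) - F.w (b i)) ^ 2 with hD
  have hD0 : 0 ≤ D := Finset.sum_nonneg (fun i _ => sq_nonneg _)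
  have hDlt : D < s * G.TQ P := by linarith
  have hTQpos : 0 < G.TQ P := by
    have : 0 < s * G.TQ P := lt_of_le_of_lt hD0 hDlt
    exact (mul_pos_iff_of_pos_left hs0).1 this
  have hTQle : G.TQ P ≤ TT + N / 2 + D / 2 := by
    have h1 : G.TQ P ≤ G.T := by
      rw [G.T_eq_restrict_add_TQ P]
      have : 0 ≤ (G.restrict P).T := by
        rw [← (G.restrict P).adapted_adb.sum_eq]
        refine Finset.sum_nonneg (fun i _ => ?_)
        rw [restrict_w]
        exact hG.1.1 _ (by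
          intro h0
          exact (G.restrict P).adb.ne_zero i (Subtype.ext h0))
      linarith
    have h2 : G.T = ∑ i, G.w (b i) := hbG.sum_eq.symm
    have h3 : TT = ∑ i, F.w (b i) := hbF.sum_eq.symm
    have h4 : ∑ i, G.w (b i) ≤ ∑ i, (F.w (b i) + 1 / 2 + (G.w (b i) - F.w (b i)) ^ 2 / 2) := by
      refine Finset.sum_le_sum (fun i _ => ?_)
      nlinarith [sq_nonneg (G.w (b i) - F.w (b i) - 1)]
    have h5 : ∑ i, (F.w (b i) + 1 / 2 + (G.w (b i) - F.w (b i)) ^ 2 / 2)
        = TT + N / 2 + D / 2 := by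
      rw [Finset.sum_add_distrib, Finset.sum_add_distrib, ← Finset.sum_div (s := Finset.univ)
        (f := fun i => (G.w (b i) - F.w (b i)) ^ 2), Finset.sum_const,
        Finset.card_univ, Fintype.card_fin, nsmul_eq_mul, hN, ← hD, ← h3]
      ring
    linarith
  have hDδ : D < δ ^ 2 := by
    have h1 : s * G.TQ P ≤ s * (TT + N / 2 + D / 2) := mul_le_mul_of_nonneg_left hTQle hs0.le
    have h2 : s * D ≤ D := by nlinarith
    have h3 : D < s * W := by
      rw [hW]
      nlinarith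
    linarith
  have hclose : ∀ i, |G.w (b i) - F.w (b i)| < δ := by
    intro i
    have h1 : (G.w (b i) - F.w (b i)) ^ 2 ≤ D :=
      Finset.single_le_sum (f := fun i => (G.w (b i) - F.w (b i)) ^ 2)
        (fun _ _ => sq_nonneg _) (Finset.mem_univ i)
    exact abs_lt_of_sq_lt_sq (by linarith) hδ0.le
  have hstepG : ∀ Q ∈ S', G.Step Q := by
    intro Q hQ
    refine step_of_lt G hbG ((hstep Q hQ).compat hbF) (fun i j hi hj => ?_)
    have h1 := hgap _ _ (b.ne_zero j) (b.ne_zero i) (step_lt (hstep Q hQ) hj hi (b.ne_zero i))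
    have h2 := abs_lt.1 (hclose i)
    have h3 := abs_lt.1 (hclose j)
    linarith
  have hPG : P < G.subGt 0 := by
    have hne : ∃ y : V, y ∉ P := by
      by_contra hcon
      push Not at hcon
      exact hPlt.not_ge (fun x _ => hcon x)
    obtain ⟨y, hy⟩ := hne
    have hy0 : y ≠ 0 := fun h0 => hy (by rw [h0]; exact P.zero_mem)
    have hFy : F.w y = 0 := by
      apply le_antisymm _ (h.dom.1 y hy0)
      by_contra hcon
      exact hy (fun _ => not_le.mp hcon)
    have hle : P ≤ G.subGt 0 := by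
      intro x hx
      rw [hbG.mem_subGt_iff]
      intro i hi
      have hbi : b i ∈ P := (hstep P (Finset.mem_insert_self _ _)).compat hbF x hx i hi
      have h1 : 0 < F.w (b i) := hbi (b.ne_zero i)
      have h2 := hgap y (b i) hy0 (b.ne_zero i) (by rw [hFy]; exact h1)
      rw [hFy, zero_add] at h2
      have h3 := abs_lt.1 (hclose i)
      linarith
    refine lt_of_le_of_ne hle (fun heq => ?_)
    obtain ⟨x, hx, hx'⟩ := (TQ_pos_iff hG.1.1).1 hTQpos
    apply hx
    rw [heq]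
    exact fun _ => hx'
  refine ⟨s, G, hs0, hsε, ⟨⟨hG.1, hstepG, hGmin⟩, ?_, ?_⟩, hPG, ?_⟩
  · intro Q hQ
    exact lt_of_le_of_lt (hQP Q hQ) hPG
  · intro Q hQ
    rcases Finset.mem_insert.1 hQ with rfl | hQ
    · rw [Function.update_self]; linarith
    · rw [Function.update_of_ne (by rintro rfl; exact hPS hQ)]
      exact h.nonneg Q hQ
  · intro x hx
    obtain ⟨i, hi, heq⟩ := hbF.exists_eq hx
    have h1 := hbG x i hi
    have h2 := abs_lt.1 (hclose i)
    rw [heq]
    linarith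

end Vale.Agent.P271.Var
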