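import Vale.Agent.P271.Var.Min

/-!
# P271 / Var : first order inequality, strong minimality, the STEP (helper366)
-/

set_option linter.unusedSectionVars false

namespace Vale.Agent.P271.Var

open Module Filter Topology
open Vale.Agent.P271.Filt Vale.Agent.P271.Filt.Wt

variable {𝕜 : Type*} [RCLike 𝕜] {V : Type*} [NormedAddCommGroup V] [InnerProductSpace 𝕜 V]
  [FiniteDimensional 𝕜 V] {H : Submodule 𝕜 V}

/-- `F` minimises the penalised functional over the class of the filtrations having the members of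
`S` as weak steps, and the members of `S` are (strict) steps of `F`. -/
structure Minz (A : Slope H) (S : Finset (Submodule 𝕜 V)) (θ : Submodule 𝕜 V → ℝ)
    (F : Wt 𝕜 V) : Prop where
  dom : Dom H F
  step : ∀ Q ∈ S, F.Step Q
  min : ∀ G, Cls H S G → Phi A S θ F ≤ Phi A S θ G

theorem step_lt {F : Wt 𝕜 V} {Q : Submodule 𝕜 V} (h : F.Step Q) {x y : V} (hx : x ∉ Q)
    (hy : y ∈ Q) (hy0 : y ≠ 0) : F.w x < F.w y := by
  obtain ⟨a, rfl⟩ := h
  have h1 : a ≤ F.w y := hy hy0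
  have h2 : F.w x < a := by
    by_contra hcon
    exact hx (fun _ => not_lt.mp hcon)
  linarith

variable {A : Slope H} {S : Finset (Submodule 𝕜 V)} {θ : Submodule 𝕜 V → ℝ} {F : Wt 𝕜 V}

theorem Minz.compat (h : Minz A S θ F) {ι : Type*} {b : Basis ι 𝕜 V} (hb : F.Adapted b) :
    ∀ Q ∈ S, Compat b Q := fun Q hQ => (h.step Q hQ).compat hb

/-- **First order inequality** at a minimiser. -/
theorem Minz.first_order (h : Minz A S θ F) {b : Basis (Fin (finrank 𝕜 V)) 𝕜 V}
    (hb : F.Adapted b) {l' : Fin (finrank 𝕜 V) → ℝ} (h0 : ∀ i, 0 ≤ l' i)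
    (h1 : ∀ i, 0 < l' i → b i ∈ H) :
    ∑ i, (kap S θ (b i) - 2 * F.w (b i)) * (l' i - F.w (b i))
      ≤ A.a (ofBasis b l') - A.a F := by
  classical
  set l : Fin (finrank 𝕜 V) → ℝ := fun i => F.w (b i) with hl
  have hl0 : ∀ i, 0 ≤ l i := (h.dom.weights b).1
  have hl1 : ∀ i, 0 < l i → b i ∈ H := (h.dom.weights b).2
  have haF : A.a F = A.a (ofBasis b l) := A.eq_ofBasis h.dom hb
  -- small `s` keep the weak steps
  have hev : ∀ᶠ s : ℝ in 𝓝[>] 0, ∀ i j, l j < l i →
      (1 - s) * l j + s * l' j < (1 - s) * l i + s * l' i := by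
    rw [eventually_all]
    intro i
    rw [eventually_all]
    intro j
    by_cases hij : l j < l i
    · have hc : Tendsto (fun s : ℝ => ((1 - s) * l i + s * l' i) - ((1 - s) * l j + s * l' j))
          (𝓝[>] 0) (𝓝 (l i - l j)) := by
        have : Continuous (fun s : ℝ => ((1 - s) * l i + s * l' i)
          - ((1 - s) * l j + s * l' j)) := by fun_prop
        have h2 := this.tendsto 0
        simp only [sub_zero, one_mul, zero_mul, add_zero] at h2
        exact h2.mono_left nhdsWithin_le_nhds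
      filter_upwards [hc.eventually (lt_mem_nhds (show (0 : ℝ) < l i - l j by linarith))]
        with s hs _
      linarith
    · exact Eventually.of_forall (fun s hs => absurd hs hij)
  have hev2 : ∀ᶠ s : ℝ in 𝓝[>] 0, s < 1 := by
    have : ∀ᶠ s : ℝ in 𝓝 (0 : ℝ), s < 1 := gt_mem_nhds (by norm_num)
    exact this.filter_mono nhdsWithin_le_nhds
  have hev3 : ∀ᶠ s : ℝ in 𝓝[>] 0, 0 < s := self_mem_nhdsWithin
  have hkey : ∀ᶠ s : ℝ in 𝓝[>] 0,
      ∑ i, (kap S θ (b i) - 2 * l i) * (l' i - l i)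
        ≤ (A.a (ofBasis b l') - A.a F) + s * ∑ i, (l' i - l i) ^ 2 := by
    filter_upwards [hev, hev2, hev3] with s hs hs1 hs0
    have hs1' : 0 < 1 - s := by linarith
    set m : Fin (finrank 𝕜 V) → ℝ := fun i => (1 - s) * l i + s * l' i with hm
    have hm0 : ∀ i, 0 ≤ m i := fun i =>
      add_nonneg (mul_nonneg hs1'.le (hl0 i)) (mul_nonneg hs0.le (h0 i))
    have hm1 : ∀ i, 0 < m i → b i ∈ H := by
      intro i hi
      by_contra hcon
      have e1 : l i = 0 := le_antisymm (not_lt.mp (fun hh => hcon (hl1 i hh))) (hl0 i)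
      have e2 : l' i = 0 := le_antisymm (not_lt.mp (fun hh => hcon (h1 i hh))) (h0 i)
      simp only [hm, e1, e2, mul_zero, add_zero, lt_irrefl] at hi
    have hdm : Dom H (ofBasis b m) := dom_ofBasis b hm0 hm1
    have hcls : Cls H S (ofBasis b m) := by
      refine ⟨hdm, fun Q hQ => ?_⟩
      refine weakStep_of_le (ofBasis_adapted _ _) (h.compat hb Q hQ) (fun i j hi hj => ?_)
      rw [ofBasis_basis, ofBasis_basis]
      exact (hs i j (step_lt (h.step Q hQ) hj hi (b.ne_zero i))).le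
    have hmin := h.min _ hcls
    rw [Phi_eq A h.dom hb (h.compat hb), Phi_eq A hdm (ofBasis_adapted _ _) (h.compat hb)] at hmin
    simp only [ofBasis_basis] at hmin
    have hconv := A.convex b hl0 hl1 h0 h1 hs0 hs1
    rw [← haF] at hconv
    have e3 : ∑ i, kap S θ (b i) * m i = ∑ i, kap S θ (b i) * l i
        + s * ∑ i, kap S θ (b i) * (l' i - l i) := by
      rw [Finset.mul_sum, ← Finset.sum_add_distrib]
      refine Finset.sum_congr rfl (fun i _ => ?_)
      simp only [hm]; ring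
    have e4 : ∑ i, (m i) ^ 2 = ∑ i, (l i) ^ 2 + s * ∑ i, 2 * l i * (l' i - l i)
        + s * (s * ∑ i, (l' i - l i) ^ 2) := by
      rw [Finset.mul_sum, Finset.mul_sum, Finset.mul_sum, ← Finset.sum_add_distrib,
        ← Finset.sum_add_distrib]
      refine Finset.sum_congr rfl (fun i _ => ?_)
      simp only [hm]; ring
    have e5 : ∑ i, (kap S θ (b i) - 2 * l i) * (l' i - l i)
        = ∑ i, kap S θ (b i) * (l' i - l i) - ∑ i, 2 * l i * (l' i - l i) := by
      rw [← Finset.sum_sub_distrib]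
      exact Finset.sum_congr rfl (fun i _ => by ring)
    rw [e3, e4] at hmin
    rw [e5]
    have hconv' : A.a (ofBasis b m) ≤ (1 - s) * A.a F + s * A.a (ofBasis b l') := hconv
    have h6 : s * (∑ i, kap S θ (b i) * (l' i - l i) - ∑ i, 2 * l i * (l' i - l i))
        ≤ s * ((A.a (ofBasis b l') - A.a F) + s * ∑ i, (l' i - l i) ^ 2) := by
      have : (∑ i, kap S θ (b i) * F.w (b i)) = ∑ i, kap S θ (b i) * l i := rfl
      have : (∑ i, F.w (b i) ^ 2) = ∑ i, (l i) ^ 2 := rfl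
      nlinarith [hmin, hconv']
    exact le_of_mul_le_mul_left h6 hs0
  have hlim : Tendsto (fun s : ℝ => (A.a (ofBasis b l') - A.a F) + s * ∑ i, (l' i - l i) ^ 2)
      (𝓝[>] 0) (𝓝 (A.a (ofBasis b l') - A.a F)) := by
    have : Continuous (fun s : ℝ => (A.a (ofBasis b l') - A.a F)
        + s * ∑ i, (l' i - l i) ^ 2) := by fun_prop
    have h2 := this.tendsto 0
    rw [zero_mul, add_zero] at h2
    exact h2.mono_left nhdsWithin_le_nhds
  exact ge_of_tendsto hlim hkey

/-- The supporting functional at a minimiser: equality at `F`. -/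
theorem Minz.kstar_eq (h : Minz A S θ F) {b : Basis (Fin (finrank 𝕜 V)) 𝕜 V}
    (hb : F.Adapted b) :
    ∑ i, (kap S θ (b i) - 2 * F.w (b i)) * F.w (b i) = A.a F := by
  have hl0 : ∀ i, 0 ≤ F.w (b i) := (h.dom.weights b).1
  have hl1 : ∀ i, 0 < F.w (b i) → b i ∈ H := (h.dom.weights b).2
  have haF : A.a F = A.a (ofBasis b (fun i => F.w (b i))) := A.eq_ofBasis h.dom hb
  have hpos : ∀ (t : ℝ), 0 < t → (∀ i, 0 ≤ t * F.w (b i)) ∧
      (∀ i, 0 < t * F.w (b i) → b i ∈ H) := fun t ht =>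
    ⟨fun i => mul_nonneg ht.le (hl0 i), fun i hi => hl1 i (by
      by_contra hcon
      have := le_antisymm (not_lt.mp hcon) (hl0 i)
      rw [this, mul_zero] at hi
      exact lt_irrefl _ hi)⟩
  set X := ∑ i, (kap S θ (b i) - 2 * F.w (b i)) * F.w (b i) with hX
  have key : ∀ t : ℝ, 0 < t → (t - 1) * X ≤ (t - 1) * A.a F := by
    intro t ht
    have h1 := h.first_order hb (hpos t ht).1 (hpos t ht).2
    rw [A.smul' b (fun i => F.w (b i)) t ht hl0 hl1, ← haF] at h1
    have h2 : ∑ i, (kap S θ (b i) - 2 * F.w (b i)) * (t * F.w (b i) - F.w (b i))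
        = (t - 1) * X := by
      rw [hX, Finset.mul_sum]
      exact Finset.sum_congr rfl (fun i _ => by ring)
    rw [h2] at h1
    linarith
  have h3 := key 2 (by norm_num)
  have h4 := key (1 / 2) (by norm_num)
  linarith

/-- The supporting functional at a minimiser: `k* = κ - 2 λ` satisfies `k*·l' ≤ a(b; l')`. -/
theorem Minz.kstar_le (h : Minz A S θ F) {b : Basis (Fin (finrank 𝕜 V)) 𝕜 V}
    (hb : F.Adapted b) {l' : Fin (finrank 𝕜 V) → ℝ} (h0 : ∀ i, 0 ≤ l' i)
    (h1 : ∀ i, 0 < l' i → b i ∈ H) :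
    ∑ i, (kap S θ (b i) - 2 * F.w (b i)) * l' i ≤ A.a (ofBasis b l') := by
  have h2 := h.first_order hb h0 h1
  have h3 := h.kstar_eq hb
  have h4 : ∑ i, (kap S θ (b i) - 2 * F.w (b i)) * (l' i - F.w (b i))
      = ∑ i, (kap S θ (b i) - 2 * F.w (b i)) * l' i
        - ∑ i, (kap S θ (b i) - 2 * F.w (b i)) * F.w (b i) := by
    rw [← Finset.sum_sub_distrib]
    exact Finset.sum_congr rfl (fun i _ => by ring)
  rw [h4, h3] at h2
  linarith

/-- `k*·μ ≤ a(G)` for every filtration `G` of the domain, on a common adapted basis. -/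
theorem Minz.kstar_le_wt (h : Minz A S θ F) {G : Wt 𝕜 V} (hG : Dom H G)
    {b : Basis (Fin (finrank 𝕜 V)) 𝕜 V} (hb : F.Adapted b) (hbG : G.Adapted b) :
    ∑ i, (kap S θ (b i) - 2 * F.w (b i)) * G.w (b i) ≤ A.a G := by
  rw [A.eq_ofBasis hG hbG]
  exact h.kstar_le hb (hG.weights b).1 (hG.weights b).2

/-- **(K3) inequality**: if `a(α F + E) ≤ α a(F) + d` then `∑ (κ_i - 2 λ_i) e_i ≤ d`. -/
theorem Minz.k3 (h : Minz A S θ F) {b : Basis (Fin (finrank 𝕜 V)) 𝕜 V}
    (hb : F.Adapted b) {e : Fin (finrank 𝕜 V) → ℝ} (h0 : ∀ i, 0 ≤ e i)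
    (h1 : ∀ i, 0 < e i → b i ∈ H) {α d : ℝ} (hα : 0 ≤ α)
    (hle : A.a (ofBasis b (fun i => α * F.w (b i) + e i)) ≤ α * A.a F + d) :
    ∑ i, (kap S θ (b i) - 2 * F.w (b i)) * e i ≤ d := by
  have hl0 : ∀ i, 0 ≤ F.w (b i) := (h.dom.weights b).1
  have hl1 : ∀ i, 0 < F.w (b i) → b i ∈ H := (h.dom.weights b).2
  have h2 := h.kstar_le hb (l' := fun i => α * F.w (b i) + e i)
    (fun i => add_nonneg (mul_nonneg hα (hl0 i)) (h0 i)) (fun i hi => by
      by_contra hcon
      have e1 : F.w (b i) = 0 := le_antisymm (not_lt.mp (fun hh => hcon (hl1 i hh))) (hl0 i)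
      have e2 : e i = 0 := le_antisymm (not_lt.mp (fun hh => hcon (h1 i hh))) (h0 i)
      simp only [e1, e2, mul_zero, add_zero, lt_irrefl] at hi)
  have h3 := h.kstar_eq hb
  have h4 : ∑ i, (kap S θ (b i) - 2 * F.w (b i)) * (α * F.w (b i) + e i)
      = α * ∑ i, (kap S θ (b i) - 2 * F.w (b i)) * F.w (b i)
        + ∑ i, (kap S θ (b i) - 2 * F.w (b i)) * e i := by
    rw [Finset.mul_sum, ← Finset.sum_add_distrib]
    exact Finset.sum_congr rfl (fun i _ => by ring)
  rw [h4, h3] at h2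
  linarith

/-- **Strong minimality**. -/
theorem Minz.strong (h : Minz A S θ F) {G : Wt 𝕜 V} (hG : Dom H G)
    {b : Basis (Fin (finrank 𝕜 V)) 𝕜 V} (hb : F.Adapted b) (hbG : G.Adapted b) :
    Phi A S θ F + ∑ i, (G.w (b i) - F.w (b i)) ^ 2 ≤ Phi A S θ G := by
  have h1 := h.first_order hb (hG.weights b).1 (hG.weights b).2
  rw [← A.eq_ofBasis hG hbG] at h1
  rw [Phi_eq A h.dom hb (h.compat hb), Phi_eq A hG hbG (h.compat hb)]
  have h2 : ∑ i, (kap S θ (b i) - 2 * F.w (b i)) * (G.w (b i) - F.w (b i))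
      = ∑ i, kap S θ (b i) * G.w (b i) - ∑ i, kap S θ (b i) * F.w (b i)
        + ∑ i, (G.w (b i) - F.w (b i)) ^ 2 + ∑ i, (F.w (b i)) ^ 2 - ∑ i, (G.w (b i)) ^ 2 := by
    rw [← Finset.sum_sub_distrib, ← Finset.sum_add_distrib, ← Finset.sum_add_distrib,
      ← Finset.sum_sub_distrib]
    exact Finset.sum_congr rfl (fun i _ => by ring)
  rw [h2] at h1
  linarith

/-- **Saturation**: a filtration `G ≥ F` with `a(G) ≤ a(F)` equals `F`, as soon as the weights of
`F` are small with respect to `κ`. -/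
theorem Minz.saturated (h : Minz A S θ F) {G : Wt 𝕜 V} (hG : Dom H G)
    (hle : ∀ x, x ≠ 0 → F.w x ≤ G.w x) (ha : A.a G ≤ A.a F)
    (hκ : ∀ x, x ≠ 0 → 2 * F.w x < kap S θ x) {x : V} (hx : x ≠ 0) : F.w x = G.w x := by
  obtain ⟨b, hbF, hbG⟩ := F.exists_adapted₂ G
  have h1 := h.kstar_le_wt hG hbF hbG
  have h2 := h.kstar_eq hbF
  have h3 : ∑ i, (kap S θ (b i) - 2 * F.w (b i)) * (G.w (b i) - F.w (b i)) ≤ 0 := by
    have : ∑ i, (kap S θ (b i) - 2 * F.w (b i)) * (G.w (b i) - F.w (b i))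
        = ∑ i, (kap S θ (b i) - 2 * F.w (b i)) * G.w (b i)
          - ∑ i, (kap S θ (b i) - 2 * F.w (b i)) * F.w (b i) := by
      rw [← Finset.sum_sub_distrib]
      exact Finset.sum_congr rfl (fun i _ => by ring)
    rw [this, h2]
    linarith
  have h4 : ∀ i ∈ Finset.univ,
      0 ≤ (kap S θ (b i) - 2 * F.w (b i)) * (G.w (b i) - F.w (b i)) := fun i _ =>
    mul_nonneg (by linarith [hκ _ (b.ne_zero i)]) (by linarith [hle _ (b.ne_zero i)])
  have h5 := (Finset.sum_eq_zero_iff_of_nonneg h4).1 (le_antisymm h3 (Finset.sum_nonneg h4))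
  refine hbF.eq_of_eq hbG (fun i => ?_) hx
  have h6 := h5 i (Finset.mem_univ i)
  rcases mul_eq_zero.1 h6 with h7 | h7
  · linarith [hκ _ (b.ne_zero i)]
  · linarith

end Vale.Agent.P271.Var
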