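import Vale.Agent.P271.Filt.Limit

/-!
# P271 / Var : weak steps, comonotone filtrations, compactness (helper366)

Tools for the penalised variational construction of the chain (note 9745 of helper154).
-/

namespace Vale.Agent.P271.Var

open Module Filter Topology
open Vale.Agent.P271.Filt Vale.Agent.P271.Filt.Wt

section Basic

variable {K : Type*} {V : Type*} [Field K] [AddCommGroup V] [Module K V]

/-- Composition of a filtration with a monotone function of the weights. -/
def mapMono (F : Wt K V) (g : ℝ → ℝ) (hg : Monotone g) : Wt K V where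
  w x := g (F.w x)
  smul_le' c x hc hx := hg (F.smul_le' c x hc hx)
  add' x y hx hy hxy := by
    rw [← hg.map_min]
    exact hg (F.add' x y hx hy hxy)

theorem mapMono_w (F : Wt K V) (g : ℝ → ℝ) (hg : Monotone g) (x : V) :
    (mapMono F g hg).w x = g (F.w x) := rfl

theorem mapMono_adapted {F : Wt K V} {g : ℝ → ℝ} (hg : Monotone g) {ι : Type*}
    {b : Basis ι K V} (hb : F.Adapted b) : (mapMono F g hg).Adapted b :=
  fun x i hi => hg (hb x i hi)

/-- `P` is a weak step of `F`: every vector of `P` has weight at least the weight of every vector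
outside `P`. -/
def WeakStep (F : Wt K V) (P : Submodule K V) : Prop := ∃ a : ℝ, F.subGt a ≤ P ∧ P ≤ F.sub a

theorem WeakStep.of_step {F : Wt K V} {P : Submodule K V} (h : F.Step P) : WeakStep F P := by
  obtain ⟨a, rfl⟩ := h
  exact ⟨a, F.subGt_le_sub a, le_rfl⟩

theorem WeakStep.le {F : Wt K V} {P : Submodule K V} (h : WeakStep F P) {x y : V} (hx : x ∉ P)
    (hy : y ∈ P) (hy0 : y ≠ 0) : F.w x ≤ F.w y := by
  obtain ⟨a, h1, h2⟩ := h
  have hxa : F.w x ≤ a := by
    by_contra hcon
    exact hx (h1 (fun _ => not_le.mp hcon))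
  exact hxa.trans (h2 hy hy0)

theorem Compat.mem_of_forall {ι : Type*} {b : Basis ι K V} {P : Submodule K V} {x : V}
    (h : ∀ i, b.repr x i ≠ 0 → b i ∈ P) : x ∈ P := by
  classical
  rw [← b.linearCombination_repr x, Finsupp.linearCombination_apply, Finsupp.sum]
  exact Submodule.sum_mem _ (fun i hi => P.smul_mem _ (h i (by simpa using hi)))

/-- A compatible subspace whose members of the basis have larger (or equal) weight than the other
members is a weak step. -/
theorem weakStep_of_le {ι : Type*} [Finite ι] {F : Wt K V} {b : Basis ι K V} (hb : F.Adapted b)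
    {P : Submodule K V} (hP : Compat b P)
    (h : ∀ i j, b i ∈ P → b j ∉ P → F.w (b j) ≤ F.w (b i)) : WeakStep F P := by
  classical
  have := Fintype.ofFinite ι
  by_cases hne : (Finset.univ.filter (fun i => b i ∈ P)).Nonempty
  · obtain ⟨i0, hi0, hmin⟩ := Finset.exists_min_image _ (fun i => F.w (b i)) hne
    rw [Finset.mem_filter] at hi0
    refine ⟨F.w (b i0), ?_, ?_⟩
    · intro x hx
      refine Compat.mem_of_forall (b := b) (fun i hi => ?_)
      by_contra hcon
      have h1 := (hb.mem_subGt_iff.1 hx) i hi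
      exact absurd h1 (not_lt.mpr (h i0 i hi0.2 hcon))
    · intro x hx
      rw [hb.mem_sub_iff]
      intro i hi
      exact hmin i (Finset.mem_filter.mpr ⟨Finset.mem_univ _, hP x hx i hi⟩)
  · have hbot : P = ⊥ := by
      rw [eq_bot_iff]
      intro x hx
      rw [Submodule.mem_bot]
      by_contra h0
      obtain ⟨i, hi, -⟩ := hb.exists_eq h0
      exact hne ⟨i, Finset.mem_filter.mpr ⟨Finset.mem_univ _, hP x hx i hi⟩⟩
    obtain ⟨M, hM⟩ := (Set.finite_range (fun i => F.w (b i))).bddAbove
    refine ⟨M, ?_, ?_⟩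
    · intro x hx
      rw [hbot, Submodule.mem_bot]
      by_contra h0
      obtain ⟨i, hi, heq⟩ := hb.exists_eq h0
      have h1 := hx h0
      have h2 : F.w (b i) ≤ M := hM ⟨i, rfl⟩
      linarith
    · rw [hbot]; exact bot_le

/-- Two filtrations are comonotone. -/
def Com (F D : Wt K V) : Prop := ∀ x y : V, x ≠ 0 → y ≠ 0 → D.w x < D.w y → F.w x ≤ F.w y

theorem Com.symm {F D : Wt K V} (h : Com F D) {x y : V} (hx : x ≠ 0) (hy : y ≠ 0)
    (hxy : F.w x < F.w y) : D.w x ≤ D.w y := by
  by_contra hcon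
  exact absurd (h y x hy hx (not_le.mp hcon)) (not_le.mpr hxy)

/-- The sum of two comonotone filtrations. -/
def comAdd (F D : Wt K V) (h : Com F D) : Wt K V where
  w x := F.w x + D.w x
  smul_le' c x hc hx := add_le_add (F.smul_le' c x hc hx) (D.smul_le' c x hc hx)
  add' x y hx hy hxy := by
    have h1 := F.add' x y hx hy hxy
    have h2 := D.add' x y hx hy hxy
    rcases lt_trichotomy (D.w x) (D.w y) with hD | hD | hD
    · have hF := h x y hx hy hD
      rw [min_eq_left hF] at h1
      rw [min_eq_left hD.le] at h2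
      exact (min_le_left _ _).trans (add_le_add h1 h2)
    · rcases le_total (F.w x) (F.w y) with hF | hF
      · rw [min_eq_left hF] at h1
        rw [min_eq_left hD.le] at h2
        exact (min_le_left _ _).trans (add_le_add h1 h2)
      · rw [min_eq_right hF] at h1
        rw [min_eq_right hD.ge] at h2
        exact (min_le_right _ _).trans (add_le_add h1 h2)
    · have hF := h y x hy hx hD
      rw [min_eq_right hF] at h1
      rw [min_eq_right hD.le] at h2
      exact (min_le_right _ _).trans (add_le_add h1 h2)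

theorem comAdd_le {F D : Wt K V} (h : Com F D) {x y : V} (hx : x ≠ 0) (hy : y ≠ 0)
    (hxy : (comAdd F D h).w x ≤ (comAdd F D h).w y) : F.w x ≤ F.w y ∧ D.w x ≤ D.w y := by
  change F.w x + D.w x ≤ F.w y + D.w y at hxy
  constructor
  · by_contra hcon
    have h1 := not_le.mp hcon
    have h2 := h.symm hy hx h1
    linarith
  · by_contra hcon
    have h1 := not_le.mp hcon
    have h2 := h y x hy hx h1
    linarith

theorem adapted_of_comAdd {F D : Wt K V} (h : Com F D) {ι : Type*} {b : Basis ι K V}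
    (hb : (comAdd F D h).Adapted b) : F.Adapted b ∧ D.Adapted b := by
  constructor
  · intro x i hi
    have hx : x ≠ 0 := by rintro rfl; simp at hi
    exact (comAdd_le h hx (b.ne_zero i) (hb x i hi)).1
  · intro x i hi
    have hx : x ≠ 0 := by rintro rfl; simp at hi
    exact (comAdd_le h hx (b.ne_zero i) (hb x i hi)).2

open Classical in
/-- The filtration which counts the members of a nested family of subspaces containing a
vector. -/
noncomputable def flag (S : Finset (Submodule K V)) (hS : ∀ P ∈ S, ∀ Q ∈ S, P ≤ Q ∨ Q ≤ P) :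
    Wt K V where
  w x := ((S.filter (fun Q => x ∈ Q)).card : ℝ)
  smul_le' := by
    intro c x hc _
    have : S.filter (fun Q => x ∈ Q) ⊆ S.filter (fun Q => c • x ∈ Q) := by
      intro Q hQ
      rw [Finset.mem_filter] at hQ ⊢
      exact ⟨hQ.1, Q.smul_mem c hQ.2⟩
    exact_mod_cast Finset.card_le_card this
  add' := by
    intro x y _ _ _
    by_cases hsub : S.filter (fun Q => x ∈ Q) ⊆ S.filter (fun Q => y ∈ Q)
    · refine (min_le_left _ _).trans ?_
      have : S.filter (fun Q => x ∈ Q) ⊆ S.filter (fun Q => x + y ∈ Q) := by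
        intro Q hQ
        have h2 := hsub hQ
        rw [Finset.mem_filter] at hQ h2 ⊢
        exact ⟨hQ.1, Q.add_mem hQ.2 h2.2⟩
      exact_mod_cast Finset.card_le_card this
    · refine (min_le_right _ _).trans ?_
      obtain ⟨Q0, hQ0, hQ0'⟩ := Finset.not_subset.1 hsub
      rw [Finset.mem_filter] at hQ0 hQ0'
      have hy0 : y ∉ Q0 := fun hy => hQ0' ⟨hQ0.1, hy⟩
      have : S.filter (fun Q => y ∈ Q) ⊆ S.filter (fun Q => x + y ∈ Q) := by
        intro Q hQ
        rw [Finset.mem_filter] at hQ ⊢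
        refine ⟨hQ.1, Q.add_mem ?_ hQ.2⟩
        rcases hS Q hQ.1 Q0 hQ0.1 with h | h
        · exact absurd (h hQ.2) hy0
        · exact h hQ0.2
      exact_mod_cast Finset.card_le_card this

theorem flag_lt {S : Finset (Submodule K V)} {hS : ∀ P ∈ S, ∀ Q ∈ S, P ≤ Q ∨ Q ≤ P} {x y : V}
    (h : (flag S hS).w x < (flag S hS).w y) : ∃ Q ∈ S, y ∈ Q ∧ x ∉ Q := by
  classical
  by_contra hcon
  push Not at hcon
  have : S.filter (fun Q => y ∈ Q) ⊆ S.filter (fun Q => x ∈ Q) := by
    intro Q hQ
    rw [Finset.mem_filter] at hQ ⊢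
    exact ⟨hQ.1, hcon Q hQ.1 hQ.2⟩
  have h2 : (flag S hS).w y ≤ (flag S hS).w x := by
    show ((S.filter (fun Q => y ∈ Q)).card : ℝ) ≤ ((S.filter (fun Q => x ∈ Q)).card : ℝ)
    exact_mod_cast Finset.card_le_card this
  linarith

theorem flag_lt_of_mem {S : Finset (Submodule K V)} {hS : ∀ P ∈ S, ∀ Q ∈ S, P ≤ Q ∨ Q ≤ P}
    {Q : Submodule K V} (hQ : Q ∈ S) {x y : V} (hx : x ∉ Q) (hy : y ∈ Q) :
    (flag S hS).w x < (flag S hS).w y := by
  classical
  have hsub : S.filter (fun Q => x ∈ Q) ⊂ S.filter (fun Q => y ∈ Q) := by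
    rw [Finset.ssubset_iff_of_subset]
    · refine ⟨Q, Finset.mem_filter.2 ⟨hQ, hy⟩, ?_⟩
      rw [Finset.mem_filter]
      exact fun h => hx h.2
    · intro R hR
      rw [Finset.mem_filter] at hR ⊢
      refine ⟨hR.1, ?_⟩
      rcases hS Q hQ R hR.1 with h | h
      · exact h hy
      · exact absurd (h hR.2) hx
  show ((S.filter (fun Q => x ∈ Q)).card : ℝ) < ((S.filter (fun Q => y ∈ Q)).card : ℝ)
  exact_mod_cast Finset.card_lt_card hsub

theorem com_flag {F : Wt K V} {S : Finset (Submodule K V)}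
    {hS : ∀ P ∈ S, ∀ Q ∈ S, P ≤ Q ∨ Q ≤ P} (hF : ∀ Q ∈ S, WeakStep F Q) : Com F (flag S hS) := by
  intro x y _ hy h
  obtain ⟨Q, hQ, hyQ, hxQ⟩ := flag_lt h
  exact (hF Q hQ).le hxQ hyQ hy

/-- A basis adapted to the flag filtration is compatible with the members of the flag. -/
theorem compat_of_flag_adapted {S : Finset (Submodule K V)}
    {hS : ∀ P ∈ S, ∀ Q ∈ S, P ≤ Q ∨ Q ≤ P} {ι : Type*} {b : Basis ι K V}
    (hb : (flag S hS).Adapted b) {Q : Submodule K V} (hQ : Q ∈ S) : Compat b Q := by
  intro x hx i hi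
  by_contra hcon
  have h1 := hb x i hi
  have h2 := flag_lt_of_mem (hS := hS) hQ hcon hx
  linarith

end Basic

section Ortho

variable {𝕜 : Type*} [RCLike 𝕜] {V : Type*} [NormedAddCommGroup V] [InnerProductSpace 𝕜 V]
  [FiniteDimensional 𝕜 V]

/-- A filtration with a nested family of weak steps has an orthonormal adapted basis with
decreasing weights, compatible with the family and with the members of the basis in a member of
the family coming first. -/
theorem exists_orthonormal_flag (F : Wt 𝕜 V) (S : Finset (Submodule 𝕜 V))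
    (hS : ∀ P ∈ S, ∀ Q ∈ S, P ≤ Q ∨ Q ≤ P) (hF : ∀ Q ∈ S, WeakStep F Q) :
    ∃ B : OrthonormalBasis (Fin (finrank 𝕜 V)) 𝕜 V, F.Adapted B.toBasis ∧
      Antitone (fun i => F.w (B i)) ∧ (∀ Q ∈ S, Compat B.toBasis Q) ∧
      ∀ Q ∈ S, ∀ i j, B i ∉ Q → B j ∈ Q → j < i := by
  have hcom : Com F (flag S hS) := com_flag hF
  obtain ⟨B, hB, hanti⟩ := (comAdd F (flag S hS) hcom).exists_orthonormal_adapted
  have hB0 : ∀ i, B i ≠ 0 := fun i => B.orthonormal.ne_zero i
  obtain ⟨h1, h2⟩ := adapted_of_comAdd hcom hB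
  refine ⟨B, h1, ?_, fun Q hQ => compat_of_flag_adapted h2 hQ, ?_⟩
  · intro i j hij
    exact (comAdd_le hcom (hB0 j) (hB0 i) (hanti hij)).1
  · intro Q hQ i j hi hj
    by_contra hcon
    have hij : i ≤ j := not_lt.mp hcon
    have h3 := (comAdd_le hcom (hB0 j) (hB0 i) (hanti hij)).2
    have h4 := flag_lt_of_mem (hS := hS) hQ hi hj
    linarith

omit [FiniteDimensional 𝕜 V] in
/-- With such an ordering the members of the basis in `Q` are the first `finrank Q` ones. -/
theorem mem_iff_lt_finrank {N : ℕ} {b : Basis (Fin N) 𝕜 V} {Q : Submodule 𝕜 V}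
    (hc : Compat b Q) (hord : ∀ i j, b i ∉ Q → b j ∈ Q → j < i) (i : Fin N) :
    b i ∈ Q ↔ (i : ℕ) < finrank 𝕜 Q := by
  classical
  have hcard : finrank 𝕜 Q = (Finset.univ.filter (fun i => b i ∈ Q)).card := by
    rw [finrank_eq_card_basis (basisSub hc), Fintype.card_subtype]
  constructor
  · intro hi
    have hsub : Finset.Iic i ⊆ Finset.univ.filter (fun i => b i ∈ Q) := by
      intro j hj
      rw [Finset.mem_filter]
      refine ⟨Finset.mem_univ _, ?_⟩
      by_contra hcon
      exact absurd (hord j i hcon hi) (not_lt.mpr (Finset.mem_Iic.1 hj))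
    have := Finset.card_le_card hsub
    rw [Fin.card_Iic, ← hcard] at this
    omega
  · intro hi
    by_contra hcon
    have hsub : Finset.univ.filter (fun i => b i ∈ Q) ⊆ Finset.Iio i := by
      intro j hj
      rw [Finset.mem_filter] at hj
      exact Finset.mem_Iio.2 (hord i j hcon hj.2)
    have := Finset.card_le_card hsub
    rw [Fin.card_Iio, ← hcard] at this
    omega

end Ortho

end Vale.Agent.P271.Var
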